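import Vale.Agent.P124.R2.H124.Iso
import Vale.Agent.P124.R2.helper477.NotCompl
import Vale.Agent.P124.Bdl.B1

open scoped NNReal ENNReal
open Metric TopologicalSpace Vale.Agent.P124 Vale.Agent.P124.R2

universe u v

namespace Vale.Agent.P124.DistortionTwoNormalForm

/-- `X` and `Y` are linearly isomorphic. -/
def LinIso (X : Type u) (Y : Type v) [NormedAddCommGroup X] [NormedSpace ℝ X]
    [NormedAddCommGroup Y] [NormedSpace ℝ Y] : Prop :=
  Nonempty (X ≃L[ℝ] Y)

/-- `Y` is linearly isomorphic to a complemented subspace of `X`: the identity of `Y` factors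
through `X` by bounded linear maps. -/
def Complemented (Y : Type u) (X : Type v) [NormedAddCommGroup Y] [NormedSpace ℝ Y]
    [NormedAddCommGroup X] [NormedSpace ℝ X] : Prop :=
  ∃ (S : Y →L[ℝ] X) (Q : X →L[ℝ] Y), ∀ y, Q (S y) = y

/-- The identity of `Y` factors through `X` by Lipschitz maps `g : Y → X` and `f : X → Y`, and on
some nonempty open set `V` of `Y` and some open set `O` of `X` containing `g V` the product of the
Lipschitz constants of `g` on `V` and of `f` on `O` is less than `D`. -/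
def LipschitzFactor (Y : Type u) (X : Type v) [NormedAddCommGroup Y] [NormedAddCommGroup X]
    (D : ℝ≥0) : Prop :=
  ∃ (g : Y → X) (f : X → Y) (K' L' K L : ℝ≥0) (V : Set Y) (O : Set X),
    LipschitzWith K' g ∧ LipschitzWith L' f ∧ (∀ y, f (g y) = y) ∧
    IsOpen V ∧ V.Nonempty ∧ IsOpen O ∧ Set.MapsTo g V O ∧
    LipschitzOnWith K g V ∧ LipschitzOnWith L f O ∧ K * L < D

/-- There is a Lipschitz isomorphism of `X` onto `Y` whose distortion on some nonempty open set
is less than `D`. -/
def LipschitzIsoBelow (X : Type u) (Y : Type v) [NormedAddCommGroup X] [NormedAddCommGroup Y]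
    (D : ℝ≥0) : Prop :=
  ∃ (f : X ≃ Y) (K' L' K L : ℝ≥0) (O : Set X),
    LipschitzWith L' f ∧ LipschitzWith K' f.symm ∧
    IsOpen O ∧ O.Nonempty ∧ LipschitzOnWith L f O ∧ LipschitzOnWith K f.symm (f '' O) ∧ K * L < D

/-- For the Banach space `X` and all Banach spaces `Y`: Lipschitz factorization of the identity of
`Y` through `X` with constant below two somewhere implies linear factorization; a Lipschitz
isomorphism `X → Y` with distortion below two on some nonempty open set implies that each of `X`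
and `Y` is complemented in the other. -/
def Rigid (X : Type u) [NormedAddCommGroup X] [NormedSpace ℝ X] : Prop :=
  ∀ (Y : Type v) [NormedAddCommGroup Y] [NormedSpace ℝ Y] [CompleteSpace Y],
    (LipschitzFactor Y X 2 → Complemented Y X) ∧
    (LipschitzIsoBelow X Y 2 → Complemented Y X ∧ Complemented X Y)

/-- Every Banach space `Y` for which there is a Lipschitz isomorphism `X → Y` with distortion
below two on some nonempty open set is linearly isomorphic to `X`. -/
def Determined (X : Type u) [NormedAddCommGroup X] [NormedSpace ℝ X] : Prop :=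
  ∀ (Y : Type v) [NormedAddCommGroup Y] [NormedSpace ℝ Y] [CompleteSpace Y],
    LipschitzIsoBelow X Y 2 → LinIso X Y

/-- `X` has a closed linear subspace `A` which is the image of a `D`-Lipschitz retraction of `X`
but is not linearly isomorphic to any complemented subspace of `X`. -/
def HasBadRetract (X : Type u) [NormedAddCommGroup X] [NormedSpace ℝ X] (D : ℝ≥0) : Prop :=
  ∃ A : Submodule ℝ X, IsClosed (A : Set X) ∧
    (∃ r : X → A, LipschitzWith D r ∧ ∀ a : A, r a = a) ∧ ¬ Complemented A X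

/-- Question Q1 with answer yes: Lipschitz isomorphic separable real Banach spaces are linearly
isomorphic. -/
def Q1 : Prop :=
  ∀ (X Y : Type u) [NormedAddCommGroup X] [NormedSpace ℝ X] [CompleteSpace X]
    [SeparableSpace X] [NormedAddCommGroup Y] [NormedSpace ℝ Y] [CompleteSpace Y]
    [SeparableSpace Y], LipEquiv X Y → LinIso X Y

/-- The same for those pairs only that have a positively homogeneous norm preserving Lipschitz
isomorphism. -/
def Q1Radial : Prop :=
  ∀ (X Y : Type u) [NormedAddCommGroup X] [NormedSpace ℝ X] [CompleteSpace X]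
    [SeparableSpace X] [NormedAddCommGroup Y] [NormedSpace ℝ Y] [CompleteSpace Y]
    [SeparableSpace Y], RadialEquiv X Y → LinIso X Y

/-- Separable Banach spaces with Lipschitz isomorphic unit spheres are linearly isomorphic. -/
def Q1Sphere : Prop :=
  ∀ (X Y : Type u) [NormedAddCommGroup X] [NormedSpace ℝ X] [CompleteSpace X]
    [SeparableSpace X] [NormedAddCommGroup Y] [NormedSpace ℝ Y] [CompleteSpace Y]
    [SeparableSpace Y], LipEquiv (sphere (0 : X) 1) (sphere (0 : Y) 1) → LinIso X Y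

end Vale.Agent.P124.DistortionTwoNormalForm

open Vale.Agent.P124.DistortionTwoNormalForm

theorem Vale.Agent.Results.P124.DistortionTwoNormalForm.result :
    (∀ (E : ℕ → Type u) [∀ i, NormedAddCommGroup (E i)] [∀ i, NormedSpace ℝ (E i)]
        [∀ i, FiniteDimensional ℝ (E i)],
        Rigid.{u, v} (lp E 1) ∧
        (LinIso (lp E 1) (lp (fun _ : ℕ => lp E 1) 1) → Determined.{u, v} (lp E 1)) ∧
        Determined.{u, v} (lp (fun n : ℕ => E (Nat.unpair n).1) 1)) ∧
    Determined.{0, v} (lp (fun _ : ℕ => ℝ) 1) ∧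
    (∃ (E : ℕ → Type) (_ : ∀ i, NormedAddCommGroup (E i)) (_ : ∀ i, NormedSpace ℝ (E i))
        (_ : ∀ i, FiniteDimensional ℝ (E i)), HasBadRetract (lp E 1) 17) ∧
    (Q1.{u} ↔ Q1Radial.{u}) ∧
    (Q1.{u} ↔ Q1Sphere.{u}) ∧
    (∀ (X Y : Type u) [NormedAddCommGroup X] [NormedSpace ℝ X]
        [NormedAddCommGroup Y] [NormedSpace ℝ Y],
      (LipEquiv X Y ↔ LipEquiv (sphere (0 : WithLp 2 (X × ℝ)) 1)
        (sphere (0 : WithLp 2 (Y × ℝ)) 1))) := by
  have h12 : Q1Radial.{u} → Q1.{u} := by
    intro H X Y _ _ _ _ _ _ _ _ h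
    obtain ⟨f, hf⟩ := h.exists_isLipIso
    obtain ⟨T⟩ := H (SumR X) (SumR Y) (exists_homog hf)
    exact cancel_sumR T
  have h21 : ∀ (X Y : Type u) [NormedAddCommGroup X] [NormedSpace ℝ X]
      [NormedAddCommGroup Y] [NormedSpace ℝ Y], RadialEquiv X Y → LipEquiv X Y := by
    intro X Y _ _ _ _ h
    obtain ⟨f, hf, -, -⟩ := h
    exact hf.lipEquiv
  refine ⟨?_, ?_, ?_, ⟨fun H X Y _ _ _ _ _ _ _ _ h => H X Y (h21 X Y h), h12⟩,
    ⟨fun H X Y _ _ _ _ _ _ _ _ h => H X Y (h21 X Y (radialEquiv_of_sphere h)),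
      fun H => h12 (fun X Y _ _ _ _ _ _ _ _ h => H X Y h.sphere)⟩,
    fun X Y _ _ _ _ => lipEquiv_iff_sphere_sumR⟩
  · intro E _ _ _
    refine ⟨?_, ?_, ?_⟩
    · intro Y _ _ _
      refine ⟨?_, ?_⟩
      · rintro ⟨g, f, K', L', K, L, V, O, hg, hf, hfg, hV, hVne, hO, hVO, hgV, hfO, hKL⟩
        exact complemented_of_factor g f K' L' K L hg hf hfg O hO V hV hVne hVO hgV hfO hKL
      · rintro ⟨f, K', L', K, L, O, hf, hg, hO, hne, hfO, hgO, hKL⟩
        exact ⟨(iso_key E Y f K' L' K L O hf hg hO hne hfO hgO hKL).1,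
          (iso_key E Y f K' L' K L O hf hg hO hne hfO hgO hKL).2.1⟩
    · rintro h Y _ _ _ ⟨f, K', L', K, L, O, hf, hg, hO, hne, hfO, hgO, hKL⟩
      exact (iso_key E Y f K' L' K L O hf hg hO hne hfO hgO hKL).2.2 h
    · rintro Y _ _ _ ⟨f, K', L', K, L, O, hf, hg, hO, hne, hfO, hgO, hKL⟩
      have : ∀ i, CompleteSpace (E i) := fun i => FiniteDimensional.complete ℝ (E i)
      exact (iso_key (fun n : ℕ => E (Nat.unpair n).1) Y f K' L' K L O hf hg hO hne hfO hgO
        hKL).2.2 (lp_one_self_sum E)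
  · rintro Y _ _ _ ⟨f, K', L', K, L, O, hf, hg, hO, hne, hfO, hgO, hKL⟩
    exact (iso_key (fun _ : ℕ => ℝ) Y f K' L' K L O hf hg hO hne hfO hgO hKL).2.2
      lp_one_real_self_sum
  · obtain ⟨E, i1, i2, i3, A, hA, ⟨r, hr, hra⟩, hn⟩ := exists_lipschitz_retract_not_complemented
    exact ⟨E, i1, i2, i3, A, hA, ⟨r, hr, hra⟩, hn⟩
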