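import Vale.Agent.P124.R2.H124.Iso

open scoped NNReal ENNReal
open Vale.Agent.P124.R2

universe u v

namespace Vale.Agent.P124.EllOneTwo

/-- `X` and `Y` are linearly isomorphic. -/
def LinIso (X : Type u) (Y : Type v) [NormedAddCommGroup X] [NormedSpace ℝ X]
    [NormedAddCommGroup Y] [NormedSpace ℝ Y] : Prop :=
  Nonempty (X ≃L[ℝ] Y)

/-- `Y` is linearly isomorphic to a complemented subspace of `X`: the identity of `Y` factors
through `X` by bounded linear maps. -/
def Complemented (Y : Type u) (X : Type v) [NormedAddCommGroup Y] [NormedSpace ℝ Y]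
    [NormedAddCommGroup X] [NormedSpace ℝ X] : Prop :=
  ∃ (S : Y →L[ℝ] X) (Q : X →L[ℝ] Y), ∀ y, Q (S y) = y

/-- The identity of `Y` factors through `X` by Lipschitz maps, the product of the two Lipschitz
constants being less than `D`. -/
def LipschitzFactor (Y : Type u) (X : Type v) [NormedAddCommGroup Y] [NormedAddCommGroup X]
    (D : ℝ≥0) : Prop :=
  ∃ (g : Y → X) (f : X → Y) (K L : ℝ≥0), LipschitzWith K g ∧ LipschitzWith L f ∧
    (∀ y, f (g y) = y) ∧ K * L < D

/-- There is a Lipschitz isomorphism of `X` onto `Y` whose distortion on some nonempty open set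
is less than `D`. -/
def LipschitzIsoBelow (X : Type u) (Y : Type v) [NormedAddCommGroup X] [NormedAddCommGroup Y]
    (D : ℝ≥0) : Prop :=
  ∃ (f : X ≃ Y) (K' L' K L : ℝ≥0) (O : Set X),
    LipschitzWith L' f ∧ LipschitzWith K' f.symm ∧
    IsOpen O ∧ O.Nonempty ∧ LipschitzOnWith L f O ∧ LipschitzOnWith K f.symm (f '' O) ∧ K * L < D

/-- For the Banach space `X` and all Banach spaces `Y`: Lipschitz factorization of the identity of
`Y` through `X` with constant below two implies linear factorization; and a Lipschitz isomorphism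
`X → Y` with distortion below two on some nonempty open set implies that each of `X` and `Y` is
complemented in the other. -/
def Rigid (X : Type u) [NormedAddCommGroup X] [NormedSpace ℝ X] : Prop :=
  ∀ (Y : Type v) [NormedAddCommGroup Y] [NormedSpace ℝ Y] [CompleteSpace Y],
    (LipschitzFactor Y X 2 → Complemented Y X) ∧
    (LipschitzIsoBelow X Y 2 → Complemented Y X ∧ Complemented X Y)

/-- Every Banach space `Y` for which there is a Lipschitz isomorphism `X → Y` with distortion
below two on some nonempty open set is linearly isomorphic to `X`. -/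
def Determined (X : Type u) [NormedAddCommGroup X] [NormedSpace ℝ X] : Prop :=
  ∀ (Y : Type v) [NormedAddCommGroup Y] [NormedSpace ℝ Y] [CompleteSpace Y],
    LipschitzIsoBelow X Y 2 → LinIso X Y

end Vale.Agent.P124.EllOneTwo

open Vale.Agent.P124.EllOneTwo

theorem Vale.Agent.Results.P124.EllOneTwo.result :
    (∀ (E : ℕ → Type u) [∀ i, NormedAddCommGroup (E i)] [∀ i, NormedSpace ℝ (E i)]
        [∀ i, FiniteDimensional ℝ (E i)],
        Rigid.{u, v} (lp E 1) ∧
        (LinIso (lp E 1) (lp (fun _ : ℕ => lp E 1) 1) → Determined.{u, v} (lp E 1)) ∧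
        Determined.{u, v} (lp (fun n : ℕ => E (Nat.unpair n).1) 1)) ∧
    Determined.{0, v} (lp (fun _ : ℕ => ℝ) 1) := by
  refine ⟨?_, ?_⟩
  · intro E _ _ _
    refine ⟨?_, ?_, ?_⟩
    · intro Y _ _ _
      refine ⟨?_, ?_⟩
      · rintro ⟨g, f, K, L, hg, hf, hfg, hKL⟩
        exact complemented_of_factor g f K L K L hg hf hfg Set.univ isOpen_univ Set.univ
          isOpen_univ Set.univ_nonempty (Set.mapsTo_univ _ _) hg.lipschitzOnWith
          hf.lipschitzOnWith hKL
      · rintro ⟨f, K', L', K, L, O, hf, hg, hO, hne, hfO, hgO, hKL⟩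
        exact ⟨(iso_key E Y f K' L' K L O hf hg hO hne hfO hgO hKL).1,
          (iso_key E Y f K' L' K L O hf hg hO hne hfO hgO hKL).2.1⟩
    · rintro h Y _ _ _ ⟨f, K', L', K, L, O, hf, hg, hO, hne, hfO, hgO, hKL⟩
      exact (iso_key E Y f K' L' K L O hf hg hO hne hfO hgO hKL).2.2 h
    · rintro Y _ _ _ ⟨f, K', L', K, L, O, hf, hg, hO, hne, hfO, hgO, hKL⟩
      have : ∀ i, CompleteSpace (E i) := fun i => FiniteDimensional.complete ℝ (E i)
      exact (iso_key (fun n : ℕ => E (Nat.unpair n).1) Y f K' L' K L O hf hg hO hne hfO hgO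
        hKL).2.2 (lp_one_self_sum E)
  · rintro Y _ _ _ ⟨f, K', L', K, L, O, hf, hg, hO, hne, hfO, hgO, hKL⟩
    exact (iso_key (fun _ : ℕ => ℝ) Y f K' L' K L O hf hg hO hne hfO hgO hKL).2.2
      lp_one_real_self_sum
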