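import Vale.Agent.P124.R2.H124.Iso
import Vale.Agent.P124.R2.helper477.NotCompl

open scoped NNReal ENNReal
open Vale.Agent.P124.R2

universe u v

namespace Vale.Agent.P124.EllOneTwoSharp

/-- `X` and `Y` are linearly isomorphic. -/
def LinIso (X : Type u) (Y : Type v) [NormedAddCommGroup X] [NormedSpace ℝ X]
    [NormedAddCommGroup Y] [NormedSpace ℝ Y] : Prop :=
  Nonempty (X ≃L[ℝ] Y)

/-- `Y` is linearly isomorphic to a complemented subspace of `X`: the identity of `Y` factors
through `X` by bounded linear maps. -/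
def Complemented (Y : Type u) (X : Type v) [NormedAddCommGroup Y] [NormedSpace ℝ Y]
    [NormedAddCommGroup X] [NormedSpace ℝ X] : Prop :=
  ∃ (S : Y →L[ℝ] X) (Q : X →L[ℝ] Y), ∀ y, Q (S y) = y

/-- The identity of `Y` factors through `X` by Lipschitz maps, the product of the two Lipschitz
constants being less than `D`. -/
def LipschitzFactor (Y : Type u) (X : Type v) [NormedAddCommGroup Y] [NormedAddCommGroup X]
    (D : ℝ≥0) : Prop :=
  ∃ (g : Y → X) (f : X → Y) (K L : ℝ≥0), LipschitzWith K g ∧ LipschitzWith L f ∧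
    (∀ y, f (g y) = y) ∧ K * L < D

/-- There is a Lipschitz isomorphism of `X` onto `Y` whose distortion on some nonempty open set
is less than `D`. -/
def LipschitzIsoBelow (X : Type u) (Y : Type v) [NormedAddCommGroup X] [NormedAddCommGroup Y]
    (D : ℝ≥0) : Prop :=
  ∃ (f : X ≃ Y) (K' L' K L : ℝ≥0) (O : Set X),
    LipschitzWith L' f ∧ LipschitzWith K' f.symm ∧
    IsOpen O ∧ O.Nonempty ∧ LipschitzOnWith L f O ∧ LipschitzOnWith K f.symm (f '' O) ∧ K * L < D

/-- Every Banach space `Y` for which there is a Lipschitz isomorphism `X → Y` with distortion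
below two on some nonempty open set is linearly isomorphic to `X`. -/
def Determined (X : Type u) [NormedAddCommGroup X] [NormedSpace ℝ X] : Prop :=
  ∀ (Y : Type v) [NormedAddCommGroup Y] [NormedSpace ℝ Y] [CompleteSpace Y],
    LipschitzIsoBelow X Y 2 → LinIso X Y

/-- Every Banach space whose identity factors through `X` by Lipschitz maps with constant below
two is linearly isomorphic to a complemented subspace of `X`. -/
def FactorRigid (X : Type u) [NormedAddCommGroup X] [NormedSpace ℝ X] : Prop :=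
  ∀ (Y : Type v) [NormedAddCommGroup Y] [NormedSpace ℝ Y] [CompleteSpace Y],
    LipschitzFactor Y X 2 → Complemented Y X

/-- `X` has a closed linear subspace `A` which is the image of a `D`-Lipschitz retraction of `X`
but is not linearly isomorphic to any complemented subspace of `X`. -/
def HasBadRetract (X : Type u) [NormedAddCommGroup X] [NormedSpace ℝ X] (D : ℝ≥0) : Prop :=
  ∃ A : Submodule ℝ X, IsClosed (A : Set X) ∧
    (∃ r : X → A, LipschitzWith D r ∧ ∀ a : A, r a = a) ∧ ¬ Complemented A X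

end Vale.Agent.P124.EllOneTwoSharp

open Vale.Agent.P124.EllOneTwoSharp

theorem Vale.Agent.Results.P124.EllOneTwoSharp.result :
    (∀ (E : ℕ → Type u) [∀ i, NormedAddCommGroup (E i)] [∀ i, NormedSpace ℝ (E i)]
        [∀ i, FiniteDimensional ℝ (E i)], FactorRigid.{u, v} (lp E 1)) ∧
    (∃ (E : ℕ → Type) (_ : ∀ i, NormedAddCommGroup (E i)) (_ : ∀ i, NormedSpace ℝ (E i))
        (_ : ∀ i, FiniteDimensional ℝ (E i)), HasBadRetract (lp E 1) 17) ∧
    Determined.{0, v} (lp (fun _ : ℕ => ℝ) 1) := by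
  refine ⟨?_, ?_, ?_⟩
  · rintro E _ _ _ Y _ _ _ ⟨g, f, K, L, hg, hf, hfg, hKL⟩
    exact complemented_of_factor g f K L K L hg hf hfg Set.univ isOpen_univ Set.univ
      isOpen_univ Set.univ_nonempty (Set.mapsTo_univ _ _) hg.lipschitzOnWith
      hf.lipschitzOnWith hKL
  · obtain ⟨E, i1, i2, i3, A, hA, ⟨r, hr, hra⟩, hn⟩ := exists_lipschitz_retract_not_complemented
    exact ⟨E, i1, i2, i3, A, hA, ⟨r, hr, hra⟩, hn⟩
  · rintro Y _ _ _ ⟨f, K', L', K, L, O, hf, hg, hO, hne, hfO, hgO, hKL⟩
    exact (iso_key (fun _ : ℕ => ℝ) Y f K' L' K L O hf hg hO hne hfO hgO hKL).2.2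
      lp_one_real_self_sum
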